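import Vale.Agent.P211.H555.Defs
import Vale.Agent.P211Z.Defs
import Mathlib.Geometry.Manifold.Instances.Sphere
import Mathlib.Geometry.Manifold.Diffeomorph
import Mathlib.LinearAlgebra.Projectivization.Basic

/-! The Levi-Civita connection and the model spaces as Riemannian manifolds. -/

namespace Vale.Agent.P211W

open scoped Manifold ContDiff Topology LinearAlgebra.Projectivization
open Bundle

noncomputable section

/-- The unit sphere of `ℝⁿ⁺¹`, with the manifold structure of Mathlib. -/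
abbrev Sph (n : ℕ) : Type := Metric.sphere (0 : EuclideanSpace ℝ (Fin (n + 1))) 1

/-- The Fubini-Study form `Re (|z|² ⟨v, w⟩ - ⟨v, z⟩ ⟨z, w⟩) / |z|⁴` at `z ≠ 0`. -/
def fs (k : Type) [RCLike k] {V : Type} [NormedAddCommGroup V] [InnerProductSpace k V]
    (z v w : V) : ℝ :=
  RCLike.re (inner k z z * inner k v w - inner k v z * inner k z w) / ‖z‖ ^ 4

variable (E : Type) [NormedAddCommGroup E] [NormedSpace ℝ E]
  (N : Type) [TopologicalSpace N] [ChartedSpace E N]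

/-- The pull back by `F` of the metric which `ℝⁿ⁺¹` induces on the unit sphere. -/
def pb {n : ℕ} (F : N → Sph n) (x : N) (v w : TangentSpace 𝓘(ℝ, E) x) : ℝ :=
  inner ℝ (mvfderiv 𝓘(ℝ, E) (fun y => (F y : EuclideanSpace ℝ (Fin (n + 1)))) x v)
    (mvfderiv 𝓘(ℝ, E) (fun y => (F y : EuclideanSpace ℝ (Fin (n + 1)))) x w)

variable [RiemannianBundle fun p : N => TangentSpace 𝓘(ℝ, E) p]

/-- `N` is isometric to the round sphere `S⁴` of radius `r`. -/
def IsoS4 (r : ℝ) : Prop :=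
  ∃ Φ : N ≃ₘ^∞⟮𝓘(ℝ, E), 𝓡 4⟯ Sph 4, ∀ (x : N) (v w : TangentSpace 𝓘(ℝ, E) x),
    inner ℝ v w = r ^ 2 * pb E N Φ x v w

/-- `N` is isometric to the Riemannian product of two round spheres `S²` of radius `r`. -/
def IsoS2S2 (r : ℝ) : Prop :=
  ∃ Φ : N ≃ₘ^∞⟮𝓘(ℝ, E), (𝓡 2).prod (𝓡 2)⟯ (Sph 2 × Sph 2),
    ∀ (x : N) (v w : TangentSpace 𝓘(ℝ, E) x), inner ℝ v w =
      r ^ 2 * pb E N (fun y => (Φ y).1) x v w + r ^ 2 * pb E N (fun y => (Φ y).2) x v w

/-- `N` is isometric to the projective space of `kⁿ⁺¹` with `c²` times the Fubini-Study metric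
(for `k = ℝ` the quotient of the round sphere of radius `c` by the antipodal map): `Φ` is a
bijection of the space of lines onto `N`, the map `P z = Φ [z]` is smooth on `z ≠ 0`, has smooth
local sections and pulls the metric of `N` back to `c²` times the Fubini-Study form. -/
def IsoProj (k : Type) [RCLike k] (n : ℕ) (c : ℝ) : Prop :=
  ∃ (Φ : ℙ k (EuclideanSpace k (Fin (n + 1))) ≃ N) (P : EuclideanSpace k (Fin (n + 1)) → N),
    (∀ (z : EuclideanSpace k (Fin (n + 1))) (hz : z ≠ 0), P z = Φ (Projectivization.mk k z hz) ∧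
      ContMDiffAt 𝓘(ℝ, EuclideanSpace k (Fin (n + 1))) 𝓘(ℝ, E) ∞ P z ∧
      ∀ v w : EuclideanSpace k (Fin (n + 1)),
        inner ℝ (mfderiv 𝓘(ℝ, EuclideanSpace k (Fin (n + 1))) 𝓘(ℝ, E) P z v)
          (mfderiv 𝓘(ℝ, EuclideanSpace k (Fin (n + 1))) 𝓘(ℝ, E) P z w) = c ^ 2 * fs k z v w) ∧
    ∀ x : N, ∃ s : N → EuclideanSpace k (Fin (n + 1)),
      ContMDiffAt 𝓘(ℝ, E) 𝓘(ℝ, EuclideanSpace k (Fin (n + 1))) ∞ s x ∧
        ∀ᶠ y in 𝓝 x, s y ≠ 0 ∧ P (s y) = y

variable {E N} [FiniteDimensional ℝ E] [IsManifold 𝓘(ℝ, E) ∞ N]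
  [IsContMDiffRiemannianBundle 𝓘(ℝ, E) ∞ E fun p : N => TangentSpace 𝓘(ℝ, E) p]

/-- A Levi-Civita connection: smooth, torsion free and compatible with the metric. -/
structure IsLeviCivita
    (cov : CovariantDerivative 𝓘(ℝ, E) E (TangentSpace 𝓘(ℝ, E) : N → Type)) : Prop where
  smooth : cov.ContMDiffCovariantDerivative ∞
  torsion : cov.torsion = 0
  metric : CovariantDerivative.IsMetricCompatible (V := (TangentSpace 𝓘(ℝ, E) : N → Type)) cov

end

end Vale.Agent.P211W
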