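import Vale.Agent.P211W98.Inv
import Vale.Agent.P211W98.St
import Mathlib.Analysis.InnerProductSpace.Calculus
import Mathlib.Geometry.Euclidean.Angle.Unoriented.Basic
import Mathlib.Analysis.SpecialFunctions.Trigonometric.Bounds

/-! The angle between lines and the Fubini-Study form. -/

namespace Vale.Agent.P211W

open scoped ContDiff Topology
open Filter RCLike InnerProductGeometry

noncomputable section

variable (k : Type) [RCLike k] {V : Type} [NormedAddCommGroup V] [InnerProductSpace k V]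

/-- the cosine of the angle between two lines -/
def kap (x w : V) : ℝ := ‖inner k x w‖ / (‖x‖ * ‖w‖)

/-- the angle between two lines -/
def ang (x w : V) : ℝ := Real.arccos (kap k x w)

theorem kap_nonneg (x w : V) : 0 ≤ kap k x w := by unfold kap; positivity

theorem kap_le (x w : V) : kap k x w ≤ 1 :=
  div_le_one_of_le₀ (norm_inner_le_norm x w) (by positivity)

theorem kap_sq (x w : V) : kap k x w ^ 2 = ‖inner k x w‖ ^ 2 / (‖x‖ ^ 2 * ‖w‖ ^ 2) := by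
  rw [kap, div_pow, mul_pow]

theorem kap_smul_left {a : k} (ha : a ≠ 0) (x w : V) : kap k (a • x) w = kap k x w := by
  have h : ‖a‖ ≠ 0 := norm_ne_zero_iff.2 ha
  rw [kap, kap, inner_smul_left, norm_mul, norm_conj, norm_smul, mul_assoc, mul_div_mul_left _ _ h]

theorem kap_comm (x w : V) : kap k x w = kap k w x := by
  rw [kap, kap, norm_inner_symm, mul_comm]

theorem kap_smul_right {a : k} (ha : a ≠ 0) (x w : V) : kap k x (a • w) = kap k x w := by
  rw [kap_comm, kap_smul_left k ha, kap_comm]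

theorem kap_self {x : V} (hx : x ≠ 0) : kap k x x = 1 := by
  have h : ‖x‖ ≠ 0 := norm_ne_zero_iff.2 hx
  rw [kap, inner_self_eq_norm_sq_to_K, norm_pow, norm_ofReal, abs_norm, sq]
  exact div_self (mul_ne_zero h h)

theorem par_of_kap {x w : V} (hx : x ≠ 0) (hw : w ≠ 0) (h : 1 ≤ kap k x w) :
    ∃ a : k, a ≠ 0 ∧ w = a • x := by
  have h1 : kap k x w = 1 := le_antisymm (kap_le k x w) h
  have h2 : 0 < ‖x‖ * ‖w‖ := mul_pos (norm_pos_iff.2 hx) (norm_pos_iff.2 hw)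
  rw [kap, div_eq_one_iff_eq h2.ne'] at h1
  exact (norm_inner_eq_norm_iff hx hw).1 h1

theorem fs_self (z v : V) :
    fs k z v v = (‖z‖ ^ 2 * ‖v‖ ^ 2 - ‖inner k v z‖ ^ 2) / ‖z‖ ^ 4 := by
  rw [fs, inner_self_eq_norm_sq_to_K, inner_self_eq_norm_sq_to_K, ← inner_conj_symm z v,
    RCLike.mul_conj]
  norm_cast

theorem fs_comm (z v w : V) : fs k z v w = fs k z w v := by
  rw [fs, fs, ← conj_re]
  simp only [map_sub, map_mul, inner_conj_symm, mul_comm]

theorem fs_polar (z v w : V) :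
    fs k z (v + w) (v + w) = fs k z v v + 2 * fs k z v w + fs k z w w := by
  rw [two_mul]
  nth_rewrite 2 [fs_comm k z v w]
  simp only [fs, inner_add_left, inner_add_right, mul_add, add_mul, map_sub, map_add]
  ring

variable [NormedSpace ℝ V]

theorem contDiffAt_kap_sq {z : V} (hz : z ≠ 0) {w : V} (hw : w ≠ 0) :
    ContDiffAt ℝ ∞ (fun x => kap k x w ^ 2) z := by
  simp only [kap_sq]
  refine ((contDiffAt_id.inner k contDiffAt_const).norm_sq k).div
    ((contDiffAt_id.norm_sq k).mul contDiffAt_const) ?_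
  exact mul_ne_zero (pow_ne_zero _ (norm_ne_zero_iff.2 hz)) (pow_ne_zero _ (norm_ne_zero_iff.2 hw))

omit [NormedSpace ℝ V] in
theorem ang_sq_eq {S : ℝ → ℝ} {δ : ℝ} (h1 : δ < 1)
    (hS : ∀ c, 0 < c → c ≤ 1 → 1 - c ^ 2 < δ → Real.arccos c ^ 2 = S (1 - c ^ 2)) {x w : V}
    (h : 1 - kap k x w ^ 2 < δ) : ang k x w ^ 2 = S (1 - kap k x w ^ 2) := by
  refine hS _ ((kap_nonneg k x w).lt_of_ne fun h0 => ?_) (kap_le k x w) h
  rw [← h0] at h
  linarith

theorem ang_smooth : ∃ η : ℝ, 0 < η ∧ η < 1 ∧ ∀ z w : V, z ≠ 0 → w ≠ 0 → ang k z w < η →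
    ContDiffAt ℝ ∞ (fun x => ang k x w ^ 2) z := by
  obtain ⟨S, R, δ, d0, d1, s1, -, -, s4⟩ := exists_asq
  refine ⟨δ, d0, d1, fun z w hz hw h => ?_⟩
  have h1 := contDiffAt_kap_sq k hz hw
  have h2 : 0 ≤ 1 - kap k z w ^ 2 := by nlinarith [kap_nonneg k z w, kap_le k z w]
  have h3 : 1 - kap k z w ^ 2 < δ := by
    have h4 := Real.sin_sq_le_sq (x := ang k z w)
    rw [ang, Real.sin_arccos, Real.sq_sqrt h2, ← ang] at h4
    have h5 : 0 ≤ ang k z w := Real.arccos_nonneg _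
    nlinarith
  have h6 : ContDiffAt ℝ ∞ (fun x => S (1 - kap k x w ^ 2)) z :=
    ContDiffAt.comp (g := S) z (s1 _ (by rwa [abs_of_nonneg h2])) (contDiffAt_const.sub h1)
  refine h6.congr_of_eventuallyEq ?_
  filter_upwards [(contDiffAt_const.sub h1).continuousAt.eventually (gt_mem_nhds h3)] with x hx
  exact ang_sq_eq k d1 s4 hx

theorem ang_lim [IsScalarTower ℝ k V] {z : V} (hz : z ≠ 0) (v : V) :
    Tendsto (fun t : ℝ => ang k (z + t • v) z ^ 2 / t ^ 2) (𝓝[≠] 0) (𝓝 (fs k z v v)) := by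
  obtain ⟨S, R, δ, d0, d1, -, s2, s3, s4⟩ := exists_asq
  have hn : 0 < ‖z‖ := norm_pos_iff.2 hz
  have h0 : Tendsto (fun t : ℝ => z + t • v) (𝓝 0) (𝓝 z) := by
    have h : Continuous fun t : ℝ => z + t • v := by fun_prop
    simpa using h.tendsto 0
  have h1 : Tendsto (fun t : ℝ => 1 - kap k (z + t • v) z ^ 2) (𝓝 0) (𝓝 0) := by
    have h := ((contDiffAt_kap_sq k hz hz).continuousAt.tendsto.comp h0).const_sub 1
    rwa [kap_self k hz, one_pow, sub_self] at h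
  have h2 : Tendsto (fun t : ℝ => (‖z‖ ^ 2 * ‖v‖ ^ 2 - ‖inner k v z‖ ^ 2)
      / (‖z + t • v‖ ^ 2 * ‖z‖ ^ 2) * R (1 - kap k (z + t • v) z ^ 2)) (𝓝 0)
      (𝓝 (fs k z v v)) := by
    have h := (((h0.norm.pow 2).mul_const (‖z‖ ^ 2)).inv₀ (by positivity)).const_mul
      (‖z‖ ^ 2 * ‖v‖ ^ 2 - ‖inner k v z‖ ^ 2) |>.mul (s3.comp h1)
    have e : fs k z v v = (‖z‖ ^ 2 * ‖v‖ ^ 2 - ‖inner k v z‖ ^ 2) * (‖z‖ ^ 2 * ‖z‖ ^ 2)⁻¹ * 1 := by
      rw [fs_self]
      field_simp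
    rw [e]
    exact h
  refine (h2.mono_left nhdsWithin_le_nhds).congr' ?_
  filter_upwards [nhdsWithin_le_nhds (h1.eventually (gt_mem_nhds d0)), self_mem_nhdsWithin,
    nhdsWithin_le_nhds (h0.eventually_ne hz)] with t a1 a2 a3
  have t0 : t ≠ 0 := a2
  have n3 : 0 < ‖z + t • v‖ := norm_pos_iff.2 a3
  rw [ang_sq_eq k d1 s4 a1, s2]
  have e1 : ‖z + t • v‖ ^ 2 = ‖z‖ ^ 2 + 2 * t * re (inner k v z) + t ^ 2 * ‖v‖ ^ 2 := by
    rw [norm_add_sq (𝕜 := k), norm_smul, mul_pow, Real.norm_eq_abs, sq_abs,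
      real_smul_eq_coe_smul (K := k), inner_smul_right, re_ofReal_mul, inner_re_symm]
    ring
  have e2 : ‖inner k (z + t • v) z‖ ^ 2
      = ‖z‖ ^ 4 + 2 * t * ‖z‖ ^ 2 * re (inner k v z) + t ^ 2 * ‖inner k v z‖ ^ 2 := by
    rw [inner_add_left, real_smul_eq_coe_smul (K := k), inner_smul_left, conj_ofReal,
      inner_self_eq_norm_sq_to_K, norm_sq_eq_def, norm_sq_eq_def]
    simp only [map_add, ← ofReal_pow, ofReal_re, ofReal_im, re_ofReal_mul, im_ofReal_mul]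
    ring
  have e3 : 1 - kap k (z + t • v) z ^ 2 = t ^ 2 * ((‖z‖ ^ 2 * ‖v‖ ^ 2 - ‖inner k v z‖ ^ 2)
      / (‖z + t • v‖ ^ 2 * ‖z‖ ^ 2)) := by
    rw [kap_sq, e2]
    field_simp
    rw [e1]
    ring
  nth_rewrite 2 [e3]
  field_simp

end

section real

variable {V : Type} [NormedAddCommGroup V] [InnerProductSpace ℝ V]

theorem angle_eq_ang {x w : V} (h : 0 < inner ℝ x w) : angle x w = ang ℝ x w := by
  rw [angle, ang, kap, Real.norm_eq_abs, abs_of_pos h]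

theorem angle_smooth : ∃ η : ℝ, 0 < η ∧ ∀ z w : V, z ≠ 0 → w ≠ 0 → angle z w < η →
    ContDiffAt ℝ ∞ (fun x => angle x w ^ 2) z := by
  obtain ⟨η, h0, h1, h2⟩ := ang_smooth ℝ (V := V)
  refine ⟨η, h0, fun z w hz hw h => ?_⟩
  have h3 : 0 < inner ℝ z w := by
    rw [← cos_angle_mul_norm_mul_norm]
    refine mul_pos (Real.cos_pos_of_le_one ?_) (mul_pos (norm_pos_iff.2 hz) (norm_pos_iff.2 hw))
    rw [abs_of_nonneg (angle_nonneg _ _)]
    linarith
  have h4 : ContinuousAt (fun x => inner ℝ x w) z := by fun_prop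
  refine (h2 z w hz hw (by rwa [← angle_eq_ang h3])).congr_of_eventuallyEq ?_
  filter_upwards [h4.eventually (lt_mem_nhds h3)] with x hx
  rw [angle_eq_ang hx]

theorem angle_lim {z : V} (hz : z ≠ 0) (v : V) :
    Tendsto (fun t : ℝ => angle (z + t • v) z ^ 2 / t ^ 2) (𝓝[≠] 0) (𝓝 (fs ℝ z v v)) := by
  refine (ang_lim ℝ hz v).congr' ?_
  have h1 : ContinuousAt (fun t : ℝ => inner ℝ (z + t • v) z) 0 := by fun_prop
  have h2 : 0 < inner ℝ (z + (0 : ℝ) • v) z := by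
    rw [zero_smul, add_zero]
    exact real_inner_self_pos.2 hz
  filter_upwards [nhdsWithin_le_nhds (h1.eventually (lt_mem_nhds h2))] with t ht
  rw [angle_eq_ang ht]

theorem norm_sub_le_angle {x w : V} (hx : ‖x‖ = 1) (hw : ‖w‖ = 1) : ‖x - w‖ ≤ angle x w := by
  refine (sq_le_sq₀ (norm_nonneg _) (angle_nonneg _ _)).1 ?_
  have h1 := inner_eq_cos_angle_of_norm_eq_one hx hw
  have h2 := Real.one_sub_sq_div_two_le_cos (x := angle x w)
  rw [norm_sub_sq_real, hx, hw]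
  nlinarith

end real

end Vale.Agent.P211W
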