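import Mathlib.Analysis.Calculus.InverseFunctionTheorem.ContDiff
import Mathlib.Analysis.Analytic.OfScalars
import Mathlib.Analysis.SpecialFunctions.Trigonometric.Series
import Mathlib.Analysis.SpecialFunctions.Trigonometric.Inverse
import Mathlib.Analysis.Calculus.FDeriv.Analytic
import Mathlib.Analysis.Calculus.DSlope
import Mathlib.Geometry.Manifold.MFDeriv.Atlas
import Mathlib.Geometry.Manifold.MFDeriv.FDeriv
import Mathlib.Geometry.Manifold.ContMDiff.NormedSpace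
import Mathlib.Geometry.Manifold.ContMDiff.Atlas
import Mathlib.Geometry.Manifold.ContMDiffMFDeriv

/-! Inverse function theorem, local sections, and the square of the arc cosine. -/

namespace Vale.Agent.P211W

open scoped Manifold ContDiff Topology Nat
open Filter

theorem ift {A B : Type} [NormedAddCommGroup A] [NormedSpace ℝ A] [FiniteDimensional ℝ A]
    [NormedAddCommGroup B] [NormedSpace ℝ B] [FiniteDimensional ℝ B] {n : ℕ∞ω} (hn : n ≠ 0)
    (hd : Module.finrank ℝ A = Module.finrank ℝ B) {f : A → B} {a : A}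
    (hf : ContDiffAt ℝ n f a) (hi : ∀ v, fderiv ℝ f a v = 0 → v = 0) :
    ∃ g : B → A, ContDiffAt ℝ n g (f a) ∧ (∀ᶠ x in 𝓝 a, g (f x) = x) ∧
      ∀ᶠ y in 𝓝 (f a), f (g y) = y := by
  have : CompleteSpace A := FiniteDimensional.complete ℝ A
  have hinj : Function.Injective (fderiv ℝ f a) := (injective_iff_map_eq_zero _).2 hi
  let L : A ≃L[ℝ] B :=
    (LinearEquiv.ofInjectiveOfFinrankEq (fderiv ℝ f a).toLinearMap hinj hd).toContinuousLinearEquiv
  have hL : (L : A →L[ℝ] B) = fderiv ℝ f a := by ext; rfl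
  have h1 : HasFDerivAt f (L : A →L[ℝ] B) a := by
    rw [hL]
    exact (hf.differentiableAt hn).hasFDerivAt
  exact ⟨hf.localInverse h1 hn, hf.to_localInverse h1 hn,
    (hf.hasStrictFDerivAt' h1 hn).eventually_left_inverse,
    (hf.hasStrictFDerivAt' h1 hn).eventually_right_inverse⟩

theorem exists_sec {E : Type} [NormedAddCommGroup E] [NormedSpace ℝ E] [FiniteDimensional ℝ E]
    {N : Type} [TopologicalSpace N] [ChartedSpace E N] [IsManifold 𝓘(ℝ, E) ∞ N]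
    {W K : Type} [NormedAddCommGroup W] [NormedSpace ℝ W] [FiniteDimensional ℝ W]
    [NormedAddCommGroup K] [NormedSpace ℝ K] [FiniteDimensional ℝ K]
    (hd : Module.finrank ℝ W = Module.finrank ℝ E + Module.finrank ℝ K)
    {P : W → N} {c : W → K} {z₀ : W} (hP : ContMDiffAt 𝓘(ℝ, W) 𝓘(ℝ, E) ∞ P z₀)
    (hc : ContDiffAt ℝ ∞ c z₀)
    (hi : ∀ v : W, mfderiv 𝓘(ℝ, W) 𝓘(ℝ, E) P z₀ v = 0 → fderiv ℝ c z₀ v = 0 → v = 0) :
    ∃ s : N → W, ContMDiffAt 𝓘(ℝ, E) 𝓘(ℝ, W) ∞ s (P z₀) ∧ s (P z₀) = z₀ ∧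
      (∀ᶠ y in 𝓝 (P z₀), P (s y) = y) ∧ ∀ᶠ z in 𝓝 z₀, c z = c z₀ → s (P z) = z := by
  let ψ := extChartAt 𝓘(ℝ, E) (P z₀)
  have hψ : ContMDiffAt 𝓘(ℝ, E) 𝓘(ℝ, E) ∞ ψ (P z₀) := contMDiffAt_extChartAt
  have h1 : ContDiffAt ℝ ∞ (ψ ∘ P) z₀ := (hψ.comp z₀ hP).contDiffAt
  have hG : ContDiffAt ℝ ∞ (fun z => ((ψ ∘ P) z, c z)) z₀ := h1.prodMk hc
  have hn : (∞ : ℕ∞ω) ≠ 0 := by simp
  obtain ⟨g, g1, g2, g3⟩ := ift hn (by rw [hd, Module.finrank_prod]) hG (by
    intro v hv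
    rw [(h1.differentiableAt hn).fderiv_prodMk (hc.differentiableAt hn)] at hv
    refine hi v ?_ (congrArg Prod.snd hv)
    have h2 : fderiv ℝ (ψ ∘ P) z₀ v = 0 := congrArg Prod.fst hv
    have h3 := mfderiv_comp_apply z₀ (hψ.mdifferentiableAt hn) (hP.mdifferentiableAt hn) v
    rw [mfderiv_eq_fderiv] at h3
    exact (isInvertible_mfderiv_extChartAt (I := 𝓘(ℝ, E)) (mem_extChartAt_source (P z₀))).injective
      ((h3.symm.trans h2).trans (map_zero _).symm))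
  have h4 : ContMDiffAt 𝓘(ℝ, E) 𝓘(ℝ, E × K) ∞ (fun y => (ψ y, c z₀)) (P z₀) :=
    hψ.prodMk_space contMDiffAt_const
  have h5 : ContMDiffAt 𝓘(ℝ, E) 𝓘(ℝ, W) ∞ (fun y => g (ψ y, c z₀)) (P z₀) :=
    ContMDiffAt.comp (P z₀) g1.contMDiffAt h4
  have h6 : g (ψ (P z₀), c z₀) = z₀ := g2.self_of_nhds
  refine ⟨fun y => g (ψ y, c z₀), h5, h6, ?_, ?_⟩
  · have h7 : Tendsto (fun y => g (ψ y, c z₀)) (𝓝 (P z₀)) (𝓝 z₀) := by
      have := h5.continuousAt.tendsto
      rwa [h6] at this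
    have h8 := (hP.continuousAt.tendsto.comp h7).eventually
      (extChartAt_source_mem_nhds (I := 𝓘(ℝ, E)) (P z₀))
    filter_upwards [h4.continuousAt.tendsto.eventually g3, h8,
      extChartAt_source_mem_nhds (I := 𝓘(ℝ, E)) (P z₀)] with y a1 a2 a3
    exact ψ.injOn a2 a3 (congrArg Prod.fst a1)
  · filter_upwards [g2] with z a1 a2
    rw [← a2]
    exact a1

theorem exists_cosq : ∃ C : ℝ → ℝ, ContDiffAt ℝ ω C 0 ∧ HasDerivAt C (-1 / 2) 0 ∧
    ∀ t : ℝ, C (t ^ 2) = Real.cos t := by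
  let c : ℕ → ℝ := fun n => (-1) ^ n / ((2 * n)! : ℝ)
  let p := FormalMultilinearSeries.ofScalars ℝ c
  have hr : ((1 : NNReal) : ENNReal) ≤ p.radius := by
    refine p.le_radius_of_bound 1 fun n => ?_
    have h1 : (1 : ℝ) ≤ ((2 * n)! : ℝ) := by exact_mod_cast Nat.factorial_pos _
    rw [FormalMultilinearSeries.ofScalars_norm, NNReal.coe_one, one_pow, mul_one]
    simp only [c, norm_div, norm_pow, norm_neg, norm_one, one_pow, Real.norm_natCast]
    exact (div_le_one (by linarith)).2 h1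
  have h := (p.hasFPowerSeriesOnBall (lt_of_lt_of_le (by simp) hr)).hasFPowerSeriesAt
  refine ⟨p.sum, h.analyticAt.contDiffAt, ?_, fun t => ?_⟩
  · have h2 := h.hasDerivAt
    have h3 : (p 1 fun _ => 1) = -1 / 2 := by
      rw [FormalMultilinearSeries.ofScalars_apply_eq]
      simp [c]
    rwa [h3] at h2
  · rw [Real.cos_eq_tsum]
    refine (FormalMultilinearSeries.ofScalars_sum_eq c (t ^ 2)).trans (tsum_congr fun n => ?_)
    simp only [c, smul_eq_mul, ← pow_mul]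
    ring

/-- `arccos c ^ 2 = S (1 - c ^ 2)` near `c = 1`, `S` smooth, `S s = s * R s`, `R 0 = 1` -/
theorem exists_asq : ∃ (S R : ℝ → ℝ) (δ : ℝ), 0 < δ ∧ δ < 1 ∧
    (∀ s, |s| < δ → ContDiffAt ℝ ∞ S s) ∧ (∀ s, S s = s * R s) ∧ Tendsto R (𝓝 0) (𝓝 1) ∧
    ∀ c, 0 < c → c ≤ 1 → 1 - c ^ 2 < δ → Real.arccos c ^ 2 = S (1 - c ^ 2) := by
  obtain ⟨C, c1, c2, c3⟩ := exists_cosq
  let G : ℝ → ℝ := fun u => (1 - C (4 * u)) / 2
  have hG : ∀ t : ℝ, G (t ^ 2) = Real.sin t ^ 2 := by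
    intro t
    have h1 : 4 * t ^ 2 = (2 * t) ^ 2 := by ring
    simp only [G, h1, c3, Real.cos_two_mul, Real.cos_sq']
    ring
  have G0 : G 0 = 0 := by simpa using hG 0
  have h40 : C (4 * 0) = C 0 := by simp
  have g1 : ContDiffAt ℝ ω G 0 := by
    have h1 : ContDiffAt ℝ ω (fun u : ℝ => C (4 * u)) 0 :=
      ContDiffAt.comp (g := C) 0 (by simpa using c1) (by fun_prop)
    exact (contDiffAt_const.sub h1).div_const 2
  have g2 : HasDerivAt G 1 0 := by
    have h1 : HasDerivAt (fun u : ℝ => C (4 * u)) (-1 / 2 * 4) 0 :=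
      HasDerivAt.comp (h₂ := C) 0 (by simpa using c2) (by simpa using (hasDerivAt_id (0 : ℝ)).const_mul 4)
    have h2 := (h1.const_sub 1).div_const 2
    have h3 : -(-1 / 2 * 4 : ℝ) / 2 = 1 := by norm_num
    rwa [h3] at h2
  obtain ⟨S, s1, s2, s3⟩ := ift (n := ω) (by simp) rfl g1 (by
    intro v hv
    rw [g2.hasFDerivAt.fderiv] at hv
    simpa using hv)
  rw [G0] at s1 s3
  have S0 : S 0 = 0 := by simpa [G0] using s2.self_of_nhds
  have sd : HasDerivAt S 1 0 := by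
    have h1 := (s1.differentiableAt (by simp)).hasDerivAt
    have h2 : HasDerivAt (G ∘ S) (1 * deriv S 0) 0 := HasDerivAt.comp 0 (by rwa [S0]) h1
    have h3 : HasDerivAt (G ∘ S) 1 0 := (hasDerivAt_id (0 : ℝ)).congr_of_eventuallyEq s3
    have h4 := h2.unique h3
    rw [one_mul] at h4
    rwa [h4] at h1
  obtain ⟨a, ha, ha'⟩ := Metric.eventually_nhds_iff.1 (s1.eventually (by simp))
  obtain ⟨b, hb, hb'⟩ := Metric.eventually_nhds_iff.1 s2
  have ht : Tendsto (fun s : ℝ => Real.arcsin √s ^ 2) (𝓝 0) (𝓝 0) := by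
    have h1 : Continuous fun s : ℝ => Real.arcsin √s ^ 2 := by fun_prop
    simpa using h1.tendsto 0
  obtain ⟨d, hd, hd'⟩ := Metric.eventually_nhds_iff.1 (ht.eventually (Metric.ball_mem_nhds 0 hb))
  refine ⟨S, dslope S 0, min (min a d) (1 / 2), by positivity,
    (min_le_right _ _).trans_lt (by norm_num), fun s hs => ?_, fun s => ?_, ?_, ?_⟩
  · refine (ha' ?_).of_le le_top
    rw [Real.dist_eq, sub_zero]
    exact hs.trans_le ((min_le_left _ _).trans (min_le_left _ _))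
  · have h1 := sub_smul_dslope S 0 s
    rw [sub_zero, S0, sub_zero, smul_eq_mul] at h1
    exact h1.symm
  · have h1 := (continuousAt_dslope_same.2 sd.differentiableAt).tendsto
    rwa [dslope_same, sd.deriv] at h1
  · intro c h0 h1 h2
    have h3 : 0 ≤ 1 - c ^ 2 := by nlinarith
    have h4 : Real.arccos c = Real.arcsin √(1 - c ^ 2) := Real.arccos_eq_arcsin h0.le
    have h5 : dist (1 - c ^ 2) 0 < d := by
      rw [Real.dist_eq, sub_zero, abs_of_nonneg h3]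
      exact h2.trans_le ((min_le_left _ _).trans (min_le_right _ _))
    have h6 := hb' (hd' h5)
    rw [← h4, hG, Real.sin_arccos, Real.sq_sqrt h3] at h6
    exact h6.symm

end Vale.Agent.P211W
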