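import Vale.Agent.P211W98.Inv
import Vale.Agent.P231.Bd3.B1

/-! The theorem of Myers and Steenrod for a parametrization with smooth squared distances. -/

set_option maxSynthPendingDepth 3
set_option linter.unusedSectionVars false

namespace Vale.Agent.P211W

open scoped Manifold ContDiff Topology
open Bundle Filter Vale.Agent.P234

variable {E : Type} [NormedAddCommGroup E] [NormedSpace ℝ E] [FiniteDimensional ℝ E]
  {N : Type} [MetricSpace N] [ChartedSpace E N] [IsManifold 𝓘(ℝ, E) ∞ N]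
  [RiemannianBundle fun p : N => TangentSpace 𝓘(ℝ, E) p]
  [IsContMDiffRiemannianBundle 𝓘(ℝ, E) ∞ E fun p : N => TangentSpace 𝓘(ℝ, E) p]
  {e : ∀ x : N, TangentSpace 𝓘(ℝ, E) x → N}
  {W : Type} [NormedAddCommGroup W] [NormedSpace ℝ W]

theorem mfderiv_exp0 (he : IsExp e) (p : N) (v : TangentSpace 𝓘(ℝ, E) p) :
    (mfderiv 𝓘(ℝ, TangentSpace 𝓘(ℝ, E) p) 𝓘(ℝ, E) (e p) 0 v : E) = v := by
  have h1 : HasFDerivAt (fun t : ℝ => t • v) ((1 : ℝ →L[ℝ] ℝ).smulRight v) 0 :=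
    ((1 : ℝ →L[ℝ] ℝ).smulRight v).hasFDerivAt
  have h2 := mfderiv_comp_apply_of_eq (I := 𝓘(ℝ, ℝ)) (I' := 𝓘(ℝ, TangentSpace 𝓘(ℝ, E) p))
    (I'' := 𝓘(ℝ, E)) (0 : ℝ) (g := e p) (f := fun t : ℝ => t • v) (y := 0)
    ((contMDiff_exp_fiber he p).mdifferentiableAt (by simp))
    h1.differentiableAt.mdifferentiableAt (zero_smul ℝ v) (1 : ℝ)
  have h3 : mfderiv 𝓘(ℝ, ℝ) 𝓘(ℝ, TangentSpace 𝓘(ℝ, E) p) (fun t : ℝ => t • v) 0 (1 : ℝ) = v := by
    rw [mfderiv_eq_fderiv, h1.fderiv]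
    exact one_smul ℝ v
  rw [h3] at h2
  exact h2.symm.trans (he.velocity p v)

theorem ms_log [CompactSpace N] (F : Facts e) {P : W → N} {z₀ : W}
    (hs : ∀ᶠ y in 𝓝 (P z₀), ContDiffAt ℝ ∞ (fun z => dist (P z) y ^ 2) z₀) :
    ∃ L : W → TangentSpace 𝓘(ℝ, E) (P z₀), ContDiffAt ℝ ∞ L z₀ ∧ L z₀ = 0 ∧
      ∀ᶠ z in 𝓝 z₀, e (P z₀) (L z) = P z ∧ ‖L z‖ = dist (P z) (P z₀) := by
  have he := F.isExp
  set p := P z₀ with hp
  obtain ⟨ρ, hρ, m1, m2⟩ := F.short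
  have hc : Tendsto P (𝓝 z₀) (𝓝 p) := by
    rw [tendsto_iff_dist_tendsto_zero]
    have h1 := hs.self_of_nhds.continuousAt.tendsto.sqrt
    simpa [← hp, Real.sqrt_sq dist_nonneg] using h1
  have hex : Tendsto (e p) (𝓝 0) (𝓝 p) := by
    have h1 := (contMDiff_exp_fiber he p).continuous.tendsto 0
    rwa [he.map_zero] at h1
  have hv : ∀ᶠ v in 𝓝 (0 : TangentSpace 𝓘(ℝ, E) p), v ∈ segMin e p ∧ SmoothAt E p (e p v) ∧
      ContDiffAt ℝ ∞ (fun z => dist (P z) (e p v) ^ 2) z₀ := by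
    filter_upwards [Metric.ball_mem_nhds 0 hρ, hex.eventually hs] with v h1 h2
    rw [mem_ball_zero_iff] at h1
    have h3 := m1 p v 0 1 (by simpa using h1.le)
    rw [zero_smul, one_smul, he.map_zero] at h3
    have h4 : dist p (e p v) = ‖v‖ := by simpa using h3
    exact ⟨h4, m2 _ _ (by rwa [h4]), h2⟩
  let b := Module.finBasis ℝ (TangentSpace 𝓘(ℝ, E) p)
  have ht : ∀ᶠ t in 𝓝[>] (0 : ℝ), ∀ i, t • b i ∈ segMin e p ∧ SmoothAt E p (e p (t • b i)) ∧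
      ContDiffAt ℝ ∞ (fun z => dist (P z) (e p (t • b i)) ^ 2) z₀ := by
    refine nhdsWithin_le_nhds (eventually_all.2 fun i => ?_)
    have h1 : Tendsto (fun t : ℝ => t • b i) (𝓝 0) (𝓝 0) := by
      have h2 : Continuous fun t : ℝ => t • b i := by fun_prop
      simpa using h2.tendsto 0
    exact h1.eventually hv
  obtain ⟨t, h1, h0⟩ := (ht.and self_mem_nhdsWithin).exists
  have t0 : t ≠ 0 := ne_of_gt h0
  let G : TangentSpace 𝓘(ℝ, E) p → Fin _ → ℝ := fun a i => cost (e p a) (e p (t • b i))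
  have g1 : ContDiffAt ℝ ∞ G 0 := by
    refine contDiffAt_pi.2 fun i => ?_
    have h2 : SmoothAt E (e p 0) (e p (t • b i)) := by
      rw [he.map_zero]
      exact (h1 i).2.1
    exact ContDiffAt.comp (f := fun a : TangentSpace 𝓘(ℝ, E) p => (a, t • b i)) 0 (h2.coord he)
      (contDiffAt_id.prodMk contDiffAt_const)
  have g2 : HasFDerivAt G (ContinuousLinearMap.pi fun i => -(innerSL ℝ (t • b i))) 0 :=
    hasFDerivAt_pi.2 fun i => hasFDerivAt_cost_zero he p _ (h1 i).1 (h1 i).2.1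
  obtain ⟨g, k1, k2, -⟩ := ift (n := ∞) (by simp) (by simp) g1 (by
    intro v hv
    rw [g2.fderiv] at hv
    refine InnerProductSpace.ext_inner_left_basis b fun i => ?_
    have h2 : -inner ℝ (t • b i) v = 0 := congrFun hv i
    rw [real_inner_smul_left, neg_eq_zero] at h2
    rw [inner_zero_right]
    exact (mul_eq_zero.1 h2).resolve_left t0)
  have l1 : ∀ᶠ z in 𝓝 z₀, e p (logMap e p (P z)) = P z ∧ ‖logMap e p (P z)‖ = dist (P z) p := by
    filter_upwards [hc.eventually (eventually_logMap he F.hopfRinow (m2 p p (by simpa using hρ)))]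
      with z hz
    refine ⟨hz.2, ?_⟩
    have h2 : dist p (e p (logMap e p (P z))) = ‖logMap e p (P z)‖ := hz.1
    rw [← h2, hz.2, dist_comm]
  have l2 : Tendsto (fun z => logMap e p (P z)) (𝓝 z₀) (𝓝 0) := by
    rw [tendsto_zero_iff_norm_tendsto_zero]
    exact (tendsto_iff_dist_tendsto_zero.1 hc).congr' (l1.mono fun z hz => hz.2.symm)
  have l0 : logMap e p (P z₀) = 0 := by
    have h2 := l1.self_of_nhds.2
    rwa [← hp, dist_self, norm_eq_zero] at h2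
  refine ⟨fun z => logMap e p (P z), ?_, l0, l1⟩
  let H : W → Fin _ → ℝ := fun z i => dist (P z) (e p (t • b i)) ^ 2 / 2
  have h2 : ContDiffAt ℝ ∞ H z₀ := contDiffAt_pi.2 fun i => (h1 i).2.2.div_const 2
  have h3 : H z₀ = G 0 := by
    funext i
    simp only [H, G, cost, he.map_zero, ← hp]
  refine (ContDiffAt.comp z₀ (by rwa [h3]) h2 : ContDiffAt ℝ ∞ (g ∘ H) z₀).congr_of_eventuallyEq ?_
  filter_upwards [l1, l2.eventually k2] with z a1 a2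
  rw [← a2]
  refine congrArg g (funext fun i => ?_)
  simp only [H, G, cost, a1.1]

theorem ms [CompactSpace N] (F : Facts e) {P : W → N} {z₀ : W}
    (hs : ∀ᶠ y in 𝓝 (P z₀), ContDiffAt ℝ ∞ (fun z => dist (P z) y ^ 2) z₀) :
    ContMDiffAt 𝓘(ℝ, W) 𝓘(ℝ, E) ∞ P z₀ ∧ ∀ (v : W) (q : ℝ),
      Tendsto (fun t : ℝ => dist (P (z₀ + t • v)) (P z₀) ^ 2 / t ^ 2) (𝓝[≠] 0) (𝓝 q) →
      inner ℝ (mfderiv 𝓘(ℝ, W) 𝓘(ℝ, E) P z₀ v) (mfderiv 𝓘(ℝ, W) 𝓘(ℝ, E) P z₀ v) = q := by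
  obtain ⟨L, l1, l0, l2⟩ := ms_log F hs
  have he := F.isExp
  have h1 : P =ᶠ[𝓝 z₀] e (P z₀) ∘ L := l2.mono fun z hz => hz.1.symm
  have h2 := contMDiff_exp_fiber he (P z₀)
  refine ⟨((h2 _).comp z₀ l1.contMDiffAt).congr_of_eventuallyEq h1, fun v q hq => ?_⟩
  have hd := l1.differentiableAt (by simp)
  have h3 : mfderiv 𝓘(ℝ, W) 𝓘(ℝ, E) P z₀ v = fderiv ℝ L z₀ v := by
    have h4 : (mfderiv 𝓘(ℝ, W) 𝓘(ℝ, E) P z₀ : W →L[ℝ] E)
        = mfderiv 𝓘(ℝ, W) 𝓘(ℝ, E) (e (P z₀) ∘ L) z₀ := h1.mfderiv_eq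
    have h5 := mfderiv_comp_apply_of_eq (I := 𝓘(ℝ, W))
      (I' := 𝓘(ℝ, TangentSpace 𝓘(ℝ, E) (P z₀))) (I'' := 𝓘(ℝ, E)) z₀ (g := e (P z₀)) (f := L)
      (y := 0) (h2.mdifferentiableAt (by simp)) hd.mdifferentiableAt l0 v
    rw [mfderiv_eq_fderiv] at h5
    exact (congrArg (fun A : W →L[ℝ] E => A v) h4).trans (h5.trans (mfderiv_exp0 he _ _))
  rw [h3, real_inner_self_eq_norm_sq]
  have h6 : HasDerivAt (fun t : ℝ => z₀ + t • v) v 0 := by
    simpa using ((hasDerivAt_id (0 : ℝ)).smul_const v).const_add z₀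
  have h7 : HasDerivAt (fun t : ℝ => L (z₀ + t • v)) (fderiv ℝ L z₀ v) 0 :=
    HasFDerivAt.comp_hasDerivAt_of_eq 0 hd.hasFDerivAt h6 (by simp)
  have h8 := (h7.tendsto_slope_zero.norm).pow 2
  refine tendsto_nhds_unique h8 (hq.congr' ?_)
  have h9 : Tendsto (fun t : ℝ => z₀ + t • v) (𝓝[≠] 0) (𝓝 z₀) := by
    have := h6.continuousAt.tendsto
    simp only [zero_smul, add_zero] at this
    exact this.mono_left nhdsWithin_le_nhds
  filter_upwards [h9.eventually l2] with t ht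
  rw [zero_add, zero_smul, add_zero, l0, sub_zero, norm_smul, ht.2, mul_pow, norm_inv,
    Real.norm_eq_abs, inv_pow, sq_abs]
  ring

end Vale.Agent.P211W
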