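import Vale.Agent.P211W98.Sph
import Vale.Agent.P211W98.LC
import Vale.Agent.P211Z.Main
import Vale.Agent.P211Z.Proj

/-! Einstein four-manifolds of nonnegative curvature, with Riemannian isometries. -/

set_option maxSynthPendingDepth 3
set_option linter.unusedSectionVars false

namespace Vale.Agent.P211W

open scoped Manifold ContDiff Topology
open Bundle Filter Vale.Agent.P211.NN Vale.Agent.P211.HK Vale.Agent.P211Z InnerProductGeometry

variable {E : Type} [NormedAddCommGroup E] [NormedSpace ℝ E] [FiniteDimensional ℝ E]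

section models

variable {N : Type} [MetricSpace N] [CompactSpace N] [ConnectedSpace N] [ChartedSpace E N]
  [IsManifold 𝓘(ℝ, E) ∞ N] [RiemannianBundle fun p : N => TangentSpace 𝓘(ℝ, E) p]
  [IsContMDiffRiemannianBundle 𝓘(ℝ, E) ∞ E fun p : N => TangentSpace 𝓘(ℝ, E) p]
  [IsRiemannianManifold 𝓘(ℝ, E) N] (hdim : Module.finrank ℝ E = 4) {r : ℝ} (hr : 0 < r)

include hdim hr

theorem of_S4 (h : IsRoundS4 N r) : IsoS4 E N r := by
  obtain ⟨e, F⟩ := exists_facts E N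
  obtain ⟨Z, h1, h2, h3⟩ := h
  exact isoS4 F hdim hr Z h1 (fun x y => by rw [h2, angle_unit (h1 x) (h1 y)]) h3

theorem of_S2S2 (h : IsRoundS2S2 N r) : IsoS2S2 E N r := by
  obtain ⟨e, F⟩ := exists_facts E N
  obtain ⟨A, B, h1, h2, h3, h4⟩ := h
  refine isoS2S2 F hdim hr A B h1 h2 (fun x y => ?_) h4
  rw [h3, Real.sq_sqrt (by positivity), angle_unit (h1 x) (h1 y), angle_unit (h2 x) (h2 y),
    mul_pow, mul_pow]

theorem of_RP4 (h : IsRoundRP4 N r) : IsoProj E N ℝ 4 r := by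
  obtain ⟨e, F⟩ := exists_facts E N
  obtain ⟨Z, h1, h2, h3⟩ := h
  have z0 : ∀ x, Z x ≠ 0 := fun x => norm_ne_zero_iff.1 (by rw [h1]; exact one_ne_zero)
  refine isoProj F ℝ 4 (by simp [hdim]) hr Z z0 (fun x y => ?_) fun z hz => ?_
  · rw [h2, ang, kap, h1, h1, mul_one, div_one, Real.norm_eq_abs]
  · have h4 : ‖z‖⁻¹ ≠ 0 := inv_ne_zero (norm_ne_zero_iff.2 hz)
    obtain ⟨x, hx | hx⟩ := h3 _ (norm_nrm hz)
    · exact ⟨x, by rw [hx, kap_smul_left ℝ h4, kap_self ℝ hz]⟩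
    · exact ⟨x, by rw [hx, ← neg_smul, kap_smul_left ℝ (neg_ne_zero.2 h4), kap_self ℝ hz]⟩

theorem of_CP2 (h : IsFubiniStudyCP2 N r) : IsoProj E N ℂ 2 r := by
  obtain ⟨e, F⟩ := exists_facts E N
  obtain ⟨Z, h1, h2, h3⟩ := h
  have i1 : ∀ a b : EuclideanSpace ℂ (Fin (2 + 1)),
      inner ℂ a b = ∑ i, starRingEnd ℂ (a i) * b i := fun a b => by
    simp only [PiLp.inner_apply, RCLike.inner_apply, mul_comm]
  let Y : N → EuclideanSpace ℂ (Fin (2 + 1)) := fun x => WithLp.toLp 2 (Z x)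
  have y1 : ∀ x, ‖Y x‖ = 1 := fun x => by
    rw [EuclideanSpace.norm_eq]
    exact Real.sqrt_eq_one.2 (h1 x)
  have z0 : ∀ x, Y x ≠ 0 := fun x => norm_ne_zero_iff.1 (by rw [y1]; exact one_ne_zero)
  have hd : Module.finrank ℝ (EuclideanSpace ℂ (Fin (2 + 1)))
      = Module.finrank ℝ E + Module.finrank ℝ ℂ := by
    rw [← Module.finrank_mul_finrank ℝ ℂ, finrank_euclideanSpace_fin, Complex.finrank_real_complex,
      hdim]
  refine isoProj F ℂ 2 hd hr Y z0 (fun x y => ?_) fun z hz => ?_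
  · rw [h2, ang, kap, y1, y1, mul_one, div_one, i1]
  · have h4 : ((‖z‖⁻¹ : ℝ) : ℂ) ≠ 0 := by simpa using hz
    have h5 : ‖((‖z‖⁻¹ : ℝ) : ℂ) • z‖ = 1 := by
      rw [norm_smul, Complex.norm_real, norm_inv, norm_norm,
        inv_mul_cancel₀ (norm_ne_zero_iff.2 hz)]
    obtain ⟨x, hx⟩ := h3 (fun i => (((‖z‖⁻¹ : ℝ) : ℂ) • z) i) (by
      rw [← EuclideanSpace.norm_sq_eq, h5, one_pow])
    refine ⟨x, ?_⟩
    rw [← kap_smul_right ℂ h4, kap, y1, h5, mul_one, div_one, i1]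
    exact hx.ge

end models

/-- the Riemannian distance of a connected manifold -/
theorem with_metric {N : Type} [t : TopologicalSpace N] [T2Space N] [ConnectedSpace N]
    [ChartedSpace E N] [IsManifold 𝓘(ℝ, E) ∞ N]
    [RiemannianBundle fun p : N => TangentSpace 𝓘(ℝ, E) p]
    [IsContMDiffRiemannianBundle 𝓘(ℝ, E) ∞ E fun p : N => TangentSpace 𝓘(ℝ, E) p] :
    ∃ m : MetricSpace N, m.toUniformSpace.toTopologicalSpace = t ∧ ∀ x y : N,
      @edist N m.toEDist x y = @Manifold.riemannianEDist E _ _ E _ 𝓘(ℝ, E) N t _ _ x y := by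
  have : IsContinuousRiemannianBundle E fun p : N => TangentSpace 𝓘(ℝ, E) p := by
    obtain ⟨g, g1, g2⟩ := IsContMDiffRiemannianBundle.exists_contMDiff (IB := 𝓘(ℝ, E)) (n := ∞)
      (F := E) (E := fun p : N => TangentSpace 𝓘(ℝ, E) p)
    exact ⟨g, g1.continuous, g2⟩
  have : ProperSpace E := FiniteDimensional.proper_real E
  have : LocallyCompactSpace N := ChartedSpace.locallyCompactSpace E N
  let eN : EMetricSpace N := EMetricSpace.ofRiemannianMetric 𝓘(ℝ, E) N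
  have hfin : ∀ x y : N, edist x y ≠ ⊤ := by
    intro x y
    have h1 : IsClopen (Metric.eball y ⊤) := ⟨Metric.isClosed_eball_top, Metric.isOpen_eball⟩
    have h3 := h1.eq_univ ⟨y, Metric.mem_eball_self (by simp)⟩
    have h4 : x ∈ Metric.eball y ⊤ := h3 ▸ Set.mem_univ x
    exact ne_of_lt h4
  exact ⟨EMetricSpace.toMetricSpace hfin, rfl, fun _ _ => rfl⟩

theorem main (hdim : Module.finrank ℝ E = 4)
    {M : Type} [TopologicalSpace M] [T2Space M] [CompactSpace M] [ConnectedSpace M]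
    [ChartedSpace E M] [IsManifold 𝓘(ℝ, E) ∞ M]
    [RiemannianBundle fun p : M => TangentSpace 𝓘(ℝ, E) p]
    [IsContMDiffRiemannianBundle 𝓘(ℝ, E) ∞ E fun p : M => TangentSpace 𝓘(ℝ, E) p] :
    (∃ cov : CovariantDerivative 𝓘(ℝ, E) E (TangentSpace 𝓘(ℝ, E) : M → Type), IsLeviCivita cov) ∧
    (∀ cov cov' : CovariantDerivative 𝓘(ℝ, E) E (TangentSpace 𝓘(ℝ, E) : M → Type),
      IsLeviCivita cov → IsLeviCivita cov' → ∀ Y : SmoothField E M, cov Y = cov' Y) ∧
    (∃ (N : Type) (_ : TopologicalSpace N) (_ : T2Space N) (_ : ChartedSpace E N)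
      (_ : IsManifold 𝓘(ℝ, E) ∞ N) (_ : RiemannianBundle fun p : N => TangentSpace 𝓘(ℝ, E) p)
      (_ : IsContMDiffRiemannianBundle 𝓘(ℝ, E) ∞ E fun p : N => TangentSpace 𝓘(ℝ, E) p)
      (φ : N → M), SimplyConnectedSpace N ∧ IsRiemannianCovering E φ) ∧
    ∀ cov : CovariantDerivative 𝓘(ℝ, E) E (TangentSpace 𝓘(ℝ, E) : M → Type), IsLeviCivita cov →
      SecNonneg cov → ∀ lam : ℝ, 0 < lam → RicciEq cov (fun _ => lam) →
      (∀ (N : Type) [TopologicalSpace N] [T2Space N] [ChartedSpace E N] [IsManifold 𝓘(ℝ, E) ∞ N]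
        [RiemannianBundle fun p : N => TangentSpace 𝓘(ℝ, E) p]
        [IsContMDiffRiemannianBundle 𝓘(ℝ, E) ∞ E fun p : N => TangentSpace 𝓘(ℝ, E) p]
        (φ : N → M), SimplyConnectedSpace N → IsRiemannianCovering E φ → CompactSpace N ∧
          (IsoS4 E N √(3 / lam) ∨ IsoProj E N ℂ 2 √(6 / lam) ∨ IsoS2S2 E N √(1 / lam))) ∧
      ((∃ p : M, ∀ X Y : SmoothField E M, LinearIndependent ℝ ![X p, Y p] →
          0 < Rm cov X Y Y X p) →
        IsoS4 E M √(3 / lam) ∨ IsoProj E M ℝ 4 √(3 / lam) ∨ IsoProj E M ℂ 2 √(6 / lam)) := by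
  refine ⟨exists_lc, fun cov cov' h h' Y => funext fun x => lc_unique h h' (P211.VF.mdiff Y x),
    ?_, fun cov hc hK lam hlam hR => ?_⟩
  · obtain ⟨N, _, c, m, g, s, -, φ, h⟩ := exists_universal (E := E) (M := M)
    exact ⟨N, inferInstance, inferInstance, c, m, g, s, φ, h⟩
  obtain ⟨mM, rfl, rM⟩ := with_metric (E := E) (N := M)
  have : IsRiemannianManifold 𝓘(ℝ, E) M := ⟨rM⟩
  refine ⟨fun N _ _ _ _ _ _ φ hN hφ => ?_, fun hp => ?_⟩
  · obtain ⟨mN, rfl, rN⟩ := with_metric (E := E) (N := N)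
    have : IsRiemannianManifold 𝓘(ℝ, E) N := ⟨rN⟩
    obtain ⟨h1, h2, -⟩ := classify hdim cov hc.smooth hc.torsion hc.metric hK hlam hR N φ hN hφ
    exact ⟨h1, h2.imp (of_S4 hdim (by positivity))
      (Or.imp (of_CP2 hdim (by positivity)) (of_S2S2 hdim (by positivity)))⟩
  · obtain ⟨N, _, _, _, _, _, _, φ, hN, hφ⟩ := exists_universal (E := E) (M := M)
    obtain ⟨-, -, h3⟩ := classify hdim cov hc.smooth hc.torsion hc.metric hK hlam hR N φ hN hφ
    rcases h3 hp with h | h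
    · exact (quotient_S4 (metricCover hφ) (by positivity) h).imp (of_S4 hdim (by positivity))
        fun h => Or.inl (of_RP4 hdim (by positivity) h)
    · exact Or.inr (Or.inr (of_CP2 hdim (by positivity)
        (quotient_CP2 (metricCover hφ) (by positivity) h)))

end Vale.Agent.P211W
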