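import Vale.Agent.P211.H555.Defs
import Vale.Agent.P211Z.Defs
import Mathlib.Geometry.Manifold.Instances.Sphere
import Mathlib.Geometry.Manifold.Diffeomorph
import Mathlib.LinearAlgebra.Projectivization.Basic

/-! The Levi-Civita connection and the model spaces as Riemannian manifolds. -/

namespace Vale.Agent.P211Y

open scoped Manifold ContDiff Topology LinearAlgebra.Projectivization
open Bundle

noncomputable section

/-- The unit sphere of `ℝⁿ⁺¹`, with the manifold structure of Mathlib. -/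
abbrev Sph (n : ℕ) : Type := Metric.sphere (0 : EuclideanSpace ℝ (Fin (n + 1))) 1

/-- The Fubini-Study form `Re (|z|² ⟨v, w⟩ - ⟨v, z⟩ ⟨z, w⟩) / |z|⁴` at `z ≠ 0`. -/
def fs (k : Type) [RCLike k] {V : Type} [NormedAddCommGroup V] [InnerProductSpace k V]
    (z v w : V) : ℝ :=
  RCLike.re (inner k z z * inner k v w - inner k v z * inner k z w) / ‖z‖ ^ 4

variable (E : Type) [NormedAddCommGroup E] [NormedSpace ℝ E]
  (N : Type) [TopologicalSpace N] [ChartedSpace E N]

/-- The pull back by `F : N → V` of the scalar product of `V`. -/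
def pb {V : Type} [NormedAddCommGroup V] [InnerProductSpace ℝ V] (F : N → V) (x : N)
    (v w : TangentSpace 𝓘(ℝ, E) x) : ℝ :=
  inner ℝ (mvfderiv 𝓘(ℝ, E) F x v) (mvfderiv 𝓘(ℝ, E) F x w)

variable [RiemannianBundle fun p : N => TangentSpace 𝓘(ℝ, E) p]

section

variable (H : Type) [NormedAddCommGroup H] [NormedSpace ℝ H] {S : Type} [TopologicalSpace S]
  [ChartedSpace H S] {V : Type} [NormedAddCommGroup V] [InnerProductSpace ℝ V] (j : S → V)

/-- `N` is isometric to `S` with `r²` times the metric induced by `j : S → V`. -/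
def IsoTo (r : ℝ) : Prop :=
  ∃ Φ : N ≃ₘ^∞⟮𝓘(ℝ, E), 𝓘(ℝ, H)⟯ S, ∀ (x : N) (v w : TangentSpace 𝓘(ℝ, E) x),
    inner ℝ v w = r ^ 2 * pb E N (fun y => j (Φ y)) x v w

/-- `N` is isometric to the Riemannian product of two copies of this `S`. -/
def IsoSq (r : ℝ) : Prop :=
  ∃ Φ : N ≃ₘ^∞⟮𝓘(ℝ, E), 𝓘(ℝ, H).prod 𝓘(ℝ, H)⟯ (S × S),
    ∀ (x : N) (v w : TangentSpace 𝓘(ℝ, E) x), inner ℝ v w =
      r ^ 2 * pb E N (fun y => j (Φ y).1) x v w + r ^ 2 * pb E N (fun y => j (Φ y).2) x v w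

end

/-- `N` is isometric to the round sphere `S⁴` of radius `r`. -/
def IsoS4 (r : ℝ) : Prop :=
  IsoTo E N (EuclideanSpace ℝ (Fin 4)) (Subtype.val : Sph 4 → EuclideanSpace ℝ (Fin (4 + 1))) r

/-- `N` is isometric to the Riemannian product of two round spheres `S²` of radius `r`. -/
def IsoS2S2 (r : ℝ) : Prop :=
  IsoSq E N (EuclideanSpace ℝ (Fin 2)) (Subtype.val : Sph 2 → EuclideanSpace ℝ (Fin (2 + 1))) r

/-- `N` is isometric to the projective space of `V` with `c²` times the Fubini-Study metric: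
`Φ` is a bijection of the space of lines onto `N`, the map `P z = Φ [z]` is smooth on `z ≠ 0`, has
smooth local sections and pulls the metric of `N` back to `c²` times the Fubini-Study form. -/
def IsoLines (k : Type) [RCLike k] (V : Type) [NormedAddCommGroup V] [InnerProductSpace k V]
    [NormedSpace ℝ V] (c : ℝ) : Prop :=
  ∃ (Φ : ℙ k V ≃ N) (P : V → N),
    (∀ (z : V) (hz : z ≠ 0), P z = Φ (Projectivization.mk k z hz) ∧
      ContMDiffAt 𝓘(ℝ, V) 𝓘(ℝ, E) ∞ P z ∧ ∀ v w : V,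
        inner ℝ (mfderiv 𝓘(ℝ, V) 𝓘(ℝ, E) P z v) (mfderiv 𝓘(ℝ, V) 𝓘(ℝ, E) P z w) =
          c ^ 2 * fs k z v w) ∧
    ∀ x : N, ∃ s : N → V, ContMDiffAt 𝓘(ℝ, E) 𝓘(ℝ, V) ∞ s x ∧ ∀ᶠ y in 𝓝 x, s y ≠ 0 ∧ P (s y) = y

/-- The same for `V = kⁿ⁺¹` (for `k = ℝ` the quotient of the round sphere of radius `c` by the
antipodal map). -/
def IsoProj (k : Type) [RCLike k] (n : ℕ) (c : ℝ) : Prop :=
  IsoLines E N k (EuclideanSpace k (Fin (n + 1))) c

variable {E N} [FiniteDimensional ℝ E] [IsManifold 𝓘(ℝ, E) ∞ N]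
  [IsContMDiffRiemannianBundle 𝓘(ℝ, E) ∞ E fun p : N => TangentSpace 𝓘(ℝ, E) p]

/-- A Levi-Civita connection: smooth, torsion free and compatible with the metric. -/
structure IsLeviCivita
    (cov : CovariantDerivative 𝓘(ℝ, E) E (TangentSpace 𝓘(ℝ, E) : N → Type)) : Prop where
  smooth : cov.ContMDiffCovariantDerivative ∞
  torsion : cov.torsion = 0
  metric : CovariantDerivative.IsMetricCompatible (V := (TangentSpace 𝓘(ℝ, E) : N → Type)) cov

end

end Vale.Agent.P211Y
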