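import Vale.Agent.P211W98.Main
import Vale.Agent.P211W98.St2

/-! The notions of `St2` are the ones of `St`. -/

namespace Vale.Agent.P211Y

open scoped Manifold ContDiff
open Bundle

variable {E : Type} [NormedAddCommGroup E] [NormedSpace ℝ E]
  {N : Type} [TopologicalSpace N] [ChartedSpace E N]
  [RiemannianBundle fun p : N => TangentSpace 𝓘(ℝ, E) p]

theorem s4_iff {r : ℝ} : P211W.IsoS4 E N r ↔ IsoS4 E N r := Iff.rfl

theorem s2s2_iff {r : ℝ} : P211W.IsoS2S2 E N r ↔ IsoS2S2 E N r := Iff.rfl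

theorem proj_iff {k : Type} [RCLike k] {n : ℕ} {c : ℝ} :
    P211W.IsoProj E N k n c ↔ IsoProj E N k n c := Iff.rfl

variable [FiniteDimensional ℝ E] [IsManifold 𝓘(ℝ, E) ∞ N]
  [IsContMDiffRiemannianBundle 𝓘(ℝ, E) ∞ E fun p : N => TangentSpace 𝓘(ℝ, E) p]

theorem lc_iff {cov : CovariantDerivative 𝓘(ℝ, E) E (TangentSpace 𝓘(ℝ, E) : N → Type)} :
    P211W.IsLeviCivita cov ↔ IsLeviCivita cov :=
  ⟨fun h => ⟨h.1, h.2, h.3⟩, fun h => ⟨h.1, h.2, h.3⟩⟩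

end Vale.Agent.P211Y
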