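import Vale.Agent.P211W98.MS
import Vale.Agent.P211W98.Ang

/-! A distance preserving bijection onto a projective space is a Riemannian isometry. -/

set_option maxSynthPendingDepth 3
set_option linter.unusedSectionVars false

namespace Vale.Agent.P211W

open scoped Manifold ContDiff Topology LinearAlgebra.Projectivization
open Bundle Filter Vale.Agent.P234

variable {E : Type} [NormedAddCommGroup E] [NormedSpace ℝ E] [FiniteDimensional ℝ E]
  {N : Type} [MetricSpace N] [ChartedSpace E N] [IsManifold 𝓘(ℝ, E) ∞ N]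
  [RiemannianBundle fun p : N => TangentSpace 𝓘(ℝ, E) p]
  [IsContMDiffRiemannianBundle 𝓘(ℝ, E) ∞ E fun p : N => TangentSpace 𝓘(ℝ, E) p]
  {e : ∀ x : N, TangentSpace 𝓘(ℝ, E) x → N}

theorem polar_of {W T : Type} [AddCommGroup W] [NormedAddCommGroup T] [InnerProductSpace ℝ T]
    {A : W → T} (hA : ∀ v w, A (v + w) = A v + A w) {q : W → W → ℝ}
    (hq : ∀ v w, q (v + w) (v + w) = q v v + 2 * q v w + q w w)
    (h : ∀ v, inner ℝ (A v) (A v) = q v v) (v w : W) : inner ℝ (A v) (A w) = q v w := by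
  have h1 := h (v + w)
  rw [hA, hq, inner_add_left, inner_add_right, inner_add_right, h v, h w,
    real_inner_comm (A v) (A w)] at h1
  linarith

theorem isoProj [CompactSpace N] [Nonempty N] (F : Facts e) (k : Type) [RCLike k] (n : ℕ)
    (hd : Module.finrank ℝ (EuclideanSpace k (Fin (n + 1)))
      = Module.finrank ℝ E + Module.finrank ℝ k) {c : ℝ} (hc : 0 < c)
    (Z : N → EuclideanSpace k (Fin (n + 1))) (h1 : ∀ x, Z x ≠ 0)
    (h2 : ∀ x y, dist x y = c * ang k (Z x) (Z y))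
    (h3 : ∀ z, z ≠ 0 → ∃ x, 1 ≤ kap k (Z x) z) : IsoProj E N k n c := by
  have h4 : ∀ z : EuclideanSpace k (Fin (n + 1)), ∃ x, z ≠ 0 → 1 ≤ kap k (Z x) z := by
    intro z
    by_cases hz : z = 0
    · exact ⟨Classical.arbitrary N, fun h => (h hz).elim⟩
    · exact (h3 z hz).imp fun x hx _ => hx
  choose P hP using h4
  have k0 : ∀ z, z ≠ 0 → ∀ w, kap k z w = kap k (Z (P z)) w := by
    intro z hz w
    obtain ⟨a, ha, h⟩ := par_of_kap k (h1 _) hz (hP z hz)
    nth_rewrite 1 [h]
    exact kap_smul_left k ha _ _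
  have k1 : ∀ z, z ≠ 0 → ∀ y, dist (P z) y = c * ang k z (Z y) := by
    intro z hz y
    rw [h2, ang, ang, k0 z hz]
  have k2 : ∀ z, z ≠ 0 → ∀ w, w ≠ 0 → dist (P z) (P w) = c * ang k z w := by
    intro z hz w hw
    rw [k1 z hz, ang, ang, kap_comm k z, kap_comm k z, k0 w hw]
  have k3 : ∀ x, P (Z x) = x := by
    intro x
    rw [← dist_eq_zero, k1 _ (h1 x), ang, kap_self k (h1 x), Real.arccos_one, mul_zero]
  have k4 : ∀ z (hz : z ≠ 0) w (hw : w ≠ 0),
      P z = P w ↔ Projectivization.mk k z hz = Projectivization.mk k w hw := by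
    intro z hz w hw
    rw [← dist_eq_zero, k2 z hz w hw, mul_eq_zero, or_iff_right hc.ne', ang, Real.arccos_eq_zero,
      Projectivization.mk_eq_mk_iff']
    constructor
    · intro h
      obtain ⟨a, -, h⟩ := par_of_kap k hw hz (by rwa [kap_comm])
      exact ⟨a, h.symm⟩
    · rintro ⟨a, rfl⟩
      rw [kap_smul_left k (left_ne_zero_of_smul hz), kap_self k hw]
  have k5 : ∀ z (hz : z ≠ 0), P (Projectivization.mk k z hz).rep = P z := fun z hz =>
    (k4 _ (Projectivization.rep_nonzero _) z hz).2 (Projectivization.mk_rep _)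
  have hb : Function.Bijective fun l : ℙ k (EuclideanSpace k (Fin (n + 1))) => P l.rep := by
    refine ⟨fun l l' h => ?_, fun x => ⟨Projectivization.mk k (Z x) (h1 x), (k5 _ _).trans (k3 x)⟩⟩
    have h5 := (k4 _ l.rep_nonzero _ l'.rep_nonzero).1 h
    rwa [Projectivization.mk_rep, Projectivization.mk_rep] at h5
  obtain ⟨η, e0, -, e1⟩ := ang_smooth k (V := EuclideanSpace k (Fin (n + 1)))
  have k6 : ∀ z, z ≠ 0 → ContMDiffAt 𝓘(ℝ, EuclideanSpace k (Fin (n + 1))) 𝓘(ℝ, E) ∞ P z ∧
      ∀ v w : EuclideanSpace k (Fin (n + 1)),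
        inner ℝ (mfderiv 𝓘(ℝ, EuclideanSpace k (Fin (n + 1))) 𝓘(ℝ, E) P z v)
          (mfderiv 𝓘(ℝ, EuclideanSpace k (Fin (n + 1))) 𝓘(ℝ, E) P z w) = c ^ 2 * fs k z v w := by
    intro z hz
    obtain ⟨m1, m2⟩ := ms F (P := P) (z₀ := z) (by
      filter_upwards [Metric.ball_mem_nhds (P z) (mul_pos hc e0)] with y hy
      rw [Metric.mem_ball, dist_comm, k1 z hz] at hy
      have h5 := (contDiffAt_const (c := c ^ 2)).mul
        (e1 z (Z y) hz (h1 y) (lt_of_mul_lt_mul_left hy hc.le))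
      refine h5.congr_of_eventuallyEq ?_
      filter_upwards [eventually_ne_nhds hz] with x hx
      rw [k1 x hx, mul_pow])
    refine ⟨m1, polar_of (W := EuclideanSpace k (Fin (n + 1)))
      (A := fun v => mfderiv 𝓘(ℝ, EuclideanSpace k (Fin (n + 1))) 𝓘(ℝ, E) P z v)
      (fun v w => map_add _ v w) (q := fun v w => c ^ 2 * fs k z v w) (fun v w => ?_) fun v => ?_⟩
    · rw [fs_polar]
      ring
    · refine m2 v _ (((ang_lim k hz v).const_mul (c ^ 2)).congr' ?_)
      have h5 : Continuous fun t : ℝ => z + t • v := by fun_prop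
      have h6 : z + (0 : ℝ) • v ≠ 0 := by simpa using hz
      filter_upwards [nhdsWithin_le_nhds (h5.continuousAt.eventually_ne h6)] with t ht
      rw [k2 _ ht z hz, mul_pow, mul_div_assoc]
  refine ⟨Equiv.ofBijective _ hb, P, fun z hz => ⟨(k5 z hz).symm, k6 z hz⟩, fun x => ?_⟩
  obtain ⟨s, s1, s2, s3, -⟩ := exists_sec hd (c := fun z => inner k (Z x) z) (k6 _ (h1 x)).1
    (contDiffAt_const.inner k contDiffAt_id) (by
      intro v a1 a2
      have a3 := fderiv_inner_apply k (differentiableAt_const (Z x))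
        (differentiableAt_id (𝕜 := ℝ) (x := Z x)) v
      have a4 : inner k (Z x) v = 0 := by
        rw [← a2]
        refine Eq.trans ?_ a3.symm
        simp
      have a5 := (k6 _ (h1 x)).2 v v
      rw [a1, inner_zero_left, fs_self, norm_inner_symm, a4, norm_zero] at a5
      have a6 : 0 < ‖Z x‖ := norm_pos_iff.2 (h1 x)
      field_simp at a5
      simpa [hc.ne', a6.ne'] using a5)
  rw [k3] at s1 s2 s3
  refine ⟨s, s1, ?_⟩
  filter_upwards [s3, s1.continuousAt.eventually_ne (by rw [s2]; exact h1 x)] with y a1 a2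
  exact ⟨a2, a1⟩

end Vale.Agent.P211W
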