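import Vale.Agent.P211W98.Proj

/-! Distance preserving bijections onto spheres and products of spheres are Riemannian
isometries. -/

set_option maxSynthPendingDepth 3
set_option linter.unusedSectionVars false

namespace Vale.Agent.P211W

open scoped Manifold ContDiff Topology
open Bundle Filter Vale.Agent.P234 InnerProductGeometry

variable {E : Type} [NormedAddCommGroup E] [NormedSpace ℝ E] [FiniteDimensional ℝ E]
  {N : Type} [MetricSpace N] [ChartedSpace E N] [IsManifold 𝓘(ℝ, E) ∞ N]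

theorem lift_smooth {W K : Type} [NormedAddCommGroup W] [NormedSpace ℝ W] [FiniteDimensional ℝ W]
    [NormedAddCommGroup K] [NormedSpace ℝ K] [FiniteDimensional ℝ K]
    (hd : Module.finrank ℝ W = Module.finrank ℝ E + Module.finrank ℝ K)
    {P : W → N} {c : W → K} {Z : N → W} (hP : ∀ x, ContMDiffAt 𝓘(ℝ, W) 𝓘(ℝ, E) ∞ P (Z x))
    (hc : ContDiff ℝ ∞ c) (hi : ∀ x, ∀ v : W, mfderiv 𝓘(ℝ, W) 𝓘(ℝ, E) P (Z x) v = 0 →
      fderiv ℝ c (Z x) v = 0 → v = 0) (hZ : Continuous Z) (h1 : ∀ x, P (Z x) = x)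
    (h2 : ∀ x y, c (Z x) = c (Z y)) :
    ContMDiff 𝓘(ℝ, E) 𝓘(ℝ, W) ∞ Z ∧ ∀ (x : N) (v : TangentSpace 𝓘(ℝ, E) x),
      (mfderiv 𝓘(ℝ, W) 𝓘(ℝ, E) P (Z x) (mvfderiv 𝓘(ℝ, E) Z x v) : E) = v := by
  have h3 : ContMDiff 𝓘(ℝ, E) 𝓘(ℝ, W) ∞ Z := by
    intro x
    obtain ⟨s, s1, -, -, s4⟩ := exists_sec hd (hP x) hc.contDiffAt (hi x)
    rw [h1] at s1
    refine s1.congr_of_eventuallyEq ?_
    filter_upwards [hZ.continuousAt.eventually s4] with y hy
    rw [← hy (h2 y x), h1]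
  refine ⟨h3, fun x v => ?_⟩
  have h4 := mfderiv_comp_apply x ((hP x).mdifferentiableAt (by simp))
    ((h3 x).mdifferentiableAt (by simp)) v
  have h5 : P ∘ Z = id := funext h1
  have h6 : ∀ f : N → N, f = id → (mfderiv 𝓘(ℝ, E) 𝓘(ℝ, E) f x v : E) = v := by
    rintro f rfl
    rw [mfderiv_id]
    rfl
  exact h4.symm.trans (h6 _ h5)

theorem mv_comp {W V : Type} [NormedAddCommGroup W] [NormedSpace ℝ W] [NormedAddCommGroup V]
    [NormedSpace ℝ V] {g : W → V} {f : N → W} {x : N} {L : W →L[ℝ] V}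
    (hg : HasFDerivAt g L (f x)) (hf : MDifferentiableAt 𝓘(ℝ, E) 𝓘(ℝ, W) f x)
    (v : TangentSpace 𝓘(ℝ, E) x) :
    mvfderiv 𝓘(ℝ, E) (g ∘ f) x v = L (mvfderiv 𝓘(ℝ, E) f x v) := by
  have h := mfderiv_comp_apply x hg.differentiableAt.mdifferentiableAt hf v
  rw [mfderiv_eq_fderiv, hg.fderiv] at h
  exact h

section

variable {V : Type} [NormedAddCommGroup V] [InnerProductSpace ℝ V]

theorem fs_unit {f : N → V} {x : N} (hf : MDifferentiableAt 𝓘(ℝ, E) 𝓘(ℝ, V) f x)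
    (h : ∀ y, ‖f y‖ = 1) (v : TangentSpace 𝓘(ℝ, E) x) :
    fs ℝ (f x) (mvfderiv 𝓘(ℝ, E) f x v) (mvfderiv 𝓘(ℝ, E) f x v)
      = inner ℝ (mvfderiv 𝓘(ℝ, E) f x v) (mvfderiv 𝓘(ℝ, E) f x v) := by
  have h1 := mv_comp (hasStrictFDerivAt_norm_sq (f x)).hasFDerivAt hf v
  have h2 : (fun u : V => ‖u‖ ^ 2) ∘ f = fun _ => 1 := funext fun y => by simp [h y]
  rw [h2, mvfderiv_const] at h1
  have h3 : inner ℝ (f x) (mvfderiv 𝓘(ℝ, E) f x v) = 0 := by simpa using h1.symm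
  rw [fs_self, real_inner_comm, h3, h, real_inner_self_eq_norm_sq]
  simp

theorem eq_zero_of_fs {z v : V} (hz : ‖z‖ = 1) (h : fs ℝ z v v ≤ 0) (h' : inner ℝ z v = 0) :
    v = 0 := by
  rw [fs_self, real_inner_comm, h', hz] at h
  have h1 : ‖v‖ ^ 2 ≤ 0 := by simpa using h
  exact norm_eq_zero.1 (pow_eq_zero_iff two_ne_zero |>.1 (le_antisymm h1 (sq_nonneg _)))

theorem fs_nonneg (z v : V) : 0 ≤ fs ℝ z v v := by
  rw [fs_self]
  refine div_nonneg ?_ (by positivity)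
  have h := pow_le_pow_left₀ (norm_nonneg _) (norm_inner_le_norm (𝕜 := ℝ) v z) 2
  nlinarith

theorem angle_unit {x w : V} (hx : ‖x‖ = 1) (hw : ‖w‖ = 1) :
    Real.arccos (inner ℝ x w) = angle x w := by
  rw [angle, hx, hw, mul_one, div_one]

theorem norm_nrm {z : V} (hz : z ≠ 0) : ‖‖z‖⁻¹ • z‖ = 1 := by
  rw [norm_smul, norm_inv, norm_norm, inv_mul_cancel₀ (norm_ne_zero_iff.2 hz)]

theorem angle_nrm {z : V} (hz : z ≠ 0) (w : V) : angle (‖z‖⁻¹ • z) w = angle z w :=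
  angle_smul_left_of_pos _ _ (inv_pos.2 (norm_pos_iff.2 hz))

theorem cont_of_angle {Z : N → V} (h : ∀ x, ‖Z x‖ = 1) {r : ℝ} (hr : 0 < r)
    (h2 : ∀ x y, r * angle (Z x) (Z y) ≤ dist x y) : Continuous Z := by
  refine (LipschitzWith.of_dist_le' (K := r⁻¹) fun x y => ?_).continuous
  rw [dist_eq_norm, le_inv_mul_iff₀ hr]
  exact (mul_le_mul_of_nonneg_left (norm_sub_le_angle (h x) (h y)) hr.le).trans (h2 x y)

end

theorem pb_polar {n : ℕ} (f : N → Sph n) (x : N) (v w : TangentSpace 𝓘(ℝ, E) x) :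
    pb E N f x (v + w) (v + w) = pb E N f x v v + 2 * pb E N f x v w + pb E N f x w w := by
  simp only [pb, map_add, inner_add_left, inner_add_right, real_inner_comm]
  ring

variable [RiemannianBundle fun p : N => TangentSpace 𝓘(ℝ, E) p]
  [IsContMDiffRiemannianBundle 𝓘(ℝ, E) ∞ E fun p : N => TangentSpace 𝓘(ℝ, E) p]
  {e : ∀ x : N, TangentSpace 𝓘(ℝ, E) x → N}

theorem inner_tr {p x : N} (h : p = x) (a : TangentSpace 𝓘(ℝ, E) p) (v : TangentSpace 𝓘(ℝ, E) x)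
    (hv : (a : E) = v) : inner ℝ a a = inner ℝ v v := by
  subst h
  rw [show a = v from hv]

theorem isoS4 [CompactSpace N] [Nonempty N] (F : Facts e) (hdim : Module.finrank ℝ E = 4) {r : ℝ}
    (hr : 0 < r) (Z : N → EuclideanSpace ℝ (Fin (4 + 1))) (h1 : ∀ x, ‖Z x‖ = 1)
    (h2 : ∀ x y, dist x y = r * angle (Z x) (Z y)) (h3 : ∀ z, ‖z‖ = 1 → ∃ x, Z x = z) :
    IsoS4 E N r := by
  have : Fact (Module.finrank ℝ (EuclideanSpace ℝ (Fin (4 + 1))) = 4 + 1) :=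
    ⟨finrank_euclideanSpace_fin⟩
  have h4 : ∀ z : EuclideanSpace ℝ (Fin (4 + 1)), ∃ x, z ≠ 0 → Z x = ‖z‖⁻¹ • z := by
    intro z
    by_cases hz : z = 0
    · exact ⟨Classical.arbitrary N, fun h => (h hz).elim⟩
    · exact (h3 _ (norm_nrm hz)).imp fun x hx _ => hx
  choose P hP using h4
  have z0 : ∀ x, Z x ≠ 0 := fun x => norm_ne_zero_iff.1 (by rw [h1]; exact one_ne_zero)
  have k1 : ∀ z, z ≠ 0 → ∀ y, dist (P z) y = r * angle z (Z y) := by
    intro z hz y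
    rw [h2, hP z hz, angle_nrm hz]
  have k3 : ∀ x, P (Z x) = x := by
    intro x
    rw [← dist_eq_zero, k1 _ (z0 x), angle_self (z0 x), mul_zero]
  obtain ⟨η, e0, e1⟩ := angle_smooth (V := EuclideanSpace ℝ (Fin (4 + 1)))
  have k6 : ∀ x, ContMDiffAt 𝓘(ℝ, EuclideanSpace ℝ (Fin (4 + 1))) 𝓘(ℝ, E) ∞ P (Z x) ∧
      ∀ v : EuclideanSpace ℝ (Fin (4 + 1)),
        inner ℝ (mfderiv 𝓘(ℝ, EuclideanSpace ℝ (Fin (4 + 1))) 𝓘(ℝ, E) P (Z x) v)
          (mfderiv 𝓘(ℝ, EuclideanSpace ℝ (Fin (4 + 1))) 𝓘(ℝ, E) P (Z x) v)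
            = r ^ 2 * fs ℝ (Z x) v v := by
    intro x
    obtain ⟨m1, m2⟩ := ms F (P := P) (z₀ := Z x) (by
      filter_upwards [Metric.ball_mem_nhds (P (Z x)) (mul_pos hr e0)] with y hy
      rw [Metric.mem_ball, dist_comm, k1 _ (z0 x)] at hy
      have h5 := (contDiffAt_const (c := r ^ 2)).mul
        (e1 _ (Z y) (z0 x) (z0 y) (lt_of_mul_lt_mul_left hy hr.le))
      refine h5.congr_of_eventuallyEq ?_
      filter_upwards [eventually_ne_nhds (z0 x)] with z hz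
      rw [k1 z hz, mul_pow])
    refine ⟨m1, fun v => m2 v _ (((angle_lim (z0 x) v).const_mul (r ^ 2)).congr' ?_)⟩
    have h5 : Continuous fun t : ℝ => Z x + t • v := by fun_prop
    have h6 : Z x + (0 : ℝ) • v ≠ 0 := by simpa using z0 x
    filter_upwards [nhdsWithin_le_nhds (h5.continuousAt.eventually_ne h6)] with t ht
    rw [k3, k1 _ ht, mul_pow, mul_div_assoc]
  obtain ⟨l1, l2⟩ := lift_smooth (E := E) (K := ℝ) (c := fun z => ‖z‖ ^ 2) (by simp [hdim])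
    (fun x => (k6 x).1) (contDiff_norm_sq ℝ) (fun x v a1 a2 => by
      have a3 := (k6 x).2 v
      rw [a1, inner_zero_left] at a3
      rw [fderiv_norm_sq_apply] at a2
      refine eq_zero_of_fs (h1 x) ?_ (by simpa using a2)
      exact ((mul_eq_zero.1 a3.symm).resolve_left (by positivity)).le)
    (cont_of_angle h1 hr fun x y => (h2 x y).ge) k3 (fun x y => by rw [h1, h1])
  have m1 : ∀ x, Z x ∈ Metric.sphere (0 : EuclideanSpace ℝ (Fin (4 + 1))) 1 := fun x =>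
    mem_sphere_zero_iff_norm.2 (h1 x)
  have m2 : ∀ u : Sph 4, Z (P u) = u := by
    intro u
    have h5 : ‖(u : EuclideanSpace ℝ (Fin (4 + 1)))‖ = 1 := norm_eq_of_mem_sphere u
    rw [hP u (ne_zero_of_mem_unit_sphere u), h5, inv_one, one_smul]
  refine ⟨⟨⟨Set.codRestrict Z _ m1, fun u => P u, k3, fun u => Subtype.ext (m2 u)⟩,
    l1.codRestrict_sphere m1, fun u => ?_⟩, fun x => ?_⟩
  · refine ContMDiffAt.comp (g := P) u ?_ (contMDiff_coe_sphere u)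
    rw [← m2 u]
    exact (k6 _).1
  · refine polar_of (A := fun v => v) (fun _ _ => rfl) (fun v w => ?_) fun v => ?_
    · rw [pb_polar]
      ring
    · rw [← inner_tr (k3 x) _ v (l2 x v), (k6 x).2,
        fs_unit ((l1 x).mdifferentiableAt (by simp)) h1]
      rfl

theorem isoS2S2 [CompactSpace N] [Nonempty N] (F : Facts e) (hdim : Module.finrank ℝ E = 4)
    {r : ℝ} (hr : 0 < r) (A B : N → EuclideanSpace ℝ (Fin (2 + 1))) (a1 : ∀ x, ‖A x‖ = 1)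
    (b1 : ∀ x, ‖B x‖ = 1)
    (h2 : ∀ x y, dist x y ^ 2 = r ^ 2 * angle (A x) (A y) ^ 2 + r ^ 2 * angle (B x) (B y) ^ 2)
    (h3 : ∀ a b, ‖a‖ = 1 → ‖b‖ = 1 → ∃ x, A x = a ∧ B x = b) : IsoS2S2 E N r := by
  have : Fact (Module.finrank ℝ (EuclideanSpace ℝ (Fin (2 + 1))) = 2 + 1) :=
    ⟨finrank_euclideanSpace_fin⟩
  have h4 : ∀ z : EuclideanSpace ℝ (Fin (2 + 1)) × EuclideanSpace ℝ (Fin (2 + 1)),
      ∃ x, z.1 ≠ 0 ∧ z.2 ≠ 0 → A x = ‖z.1‖⁻¹ • z.1 ∧ B x = ‖z.2‖⁻¹ • z.2 := by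
    intro z
    by_cases hz : z.1 ≠ 0 ∧ z.2 ≠ 0
    · exact (h3 _ _ (norm_nrm hz.1) (norm_nrm hz.2)).imp fun x hx _ => hx
    · exact ⟨Classical.arbitrary N, fun h => (hz h).elim⟩
  choose P hP using h4
  have a0 : ∀ x, A x ≠ 0 := fun x => norm_ne_zero_iff.1 (by rw [a1]; exact one_ne_zero)
  have b0 : ∀ x, B x ≠ 0 := fun x => norm_ne_zero_iff.1 (by rw [b1]; exact one_ne_zero)
  have k1 : ∀ z, z.1 ≠ 0 ∧ z.2 ≠ 0 → ∀ y, dist (P z) y ^ 2
      = r ^ 2 * angle z.1 (A y) ^ 2 + r ^ 2 * angle z.2 (B y) ^ 2 := by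
    intro z hz y
    rw [h2, (hP z hz).1, (hP z hz).2, angle_nrm hz.1, angle_nrm hz.2]
  have k3 : ∀ x, P (A x, B x) = x := by
    intro x
    rw [← dist_eq_zero, ← pow_eq_zero_iff two_ne_zero, k1 _ ⟨a0 x, b0 x⟩, angle_self (a0 x),
      angle_self (b0 x)]
    simp
  have ka : ∀ x y, r * angle (A x) (A y) ≤ dist x y := fun x y =>
    (sq_le_sq₀ (mul_nonneg hr.le (angle_nonneg _ _)) dist_nonneg).1 (by
      rw [h2, mul_pow]
      exact le_add_of_nonneg_right (by positivity))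
  have kb : ∀ x y, r * angle (B x) (B y) ≤ dist x y := fun x y =>
    (sq_le_sq₀ (mul_nonneg hr.le (angle_nonneg _ _)) dist_nonneg).1 (by
      rw [h2, mul_pow]
      exact le_add_of_nonneg_left (by positivity))
  have hne : ∀ x, ∀ᶠ z in 𝓝 (A x, B x), z.1 ≠ 0 ∧ z.2 ≠ 0 := fun x =>
    (continuous_fst.continuousAt.eventually_ne (a0 x)).and
      (continuous_snd.continuousAt.eventually_ne (b0 x))
  obtain ⟨η, e0, e1⟩ := angle_smooth (V := EuclideanSpace ℝ (Fin (2 + 1)))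
  have k6 : ∀ x, ContMDiffAt
      𝓘(ℝ, EuclideanSpace ℝ (Fin (2 + 1)) × EuclideanSpace ℝ (Fin (2 + 1))) 𝓘(ℝ, E) ∞ P
        (A x, B x) ∧ ∀ v : EuclideanSpace ℝ (Fin (2 + 1)) × EuclideanSpace ℝ (Fin (2 + 1)),
      inner ℝ (mfderiv 𝓘(ℝ, EuclideanSpace ℝ (Fin (2 + 1)) × EuclideanSpace ℝ (Fin (2 + 1)))
          𝓘(ℝ, E) P (A x, B x) v)
        (mfderiv 𝓘(ℝ, EuclideanSpace ℝ (Fin (2 + 1)) × EuclideanSpace ℝ (Fin (2 + 1)))
          𝓘(ℝ, E) P (A x, B x) v) = r ^ 2 * fs ℝ (A x) v.1 v.1 + r ^ 2 * fs ℝ (B x) v.2 v.2 := by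
    intro x
    obtain ⟨m1, m2⟩ := ms F (P := P) (z₀ := (A x, B x)) (by
      filter_upwards [Metric.ball_mem_nhds (P (A x, B x)) (mul_pos hr e0)] with y hy
      rw [Metric.mem_ball, dist_comm, k3] at hy
      have h5 := e1 _ (A y) (a0 x) (a0 y) (lt_of_mul_lt_mul_left ((ka x y).trans_lt hy) hr.le)
      have h6 := e1 _ (B y) (b0 x) (b0 y) (lt_of_mul_lt_mul_left ((kb x y).trans_lt hy) hr.le)
      have h7 := ((contDiffAt_const (c := r ^ 2)).mul
        (ContDiffAt.comp (f := Prod.fst) (A x, B x) h5 contDiffAt_fst)).add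
        ((contDiffAt_const (c := r ^ 2)).mul
          (ContDiffAt.comp (f := Prod.snd) (A x, B x) h6 contDiffAt_snd))
      refine h7.congr_of_eventuallyEq ?_
      filter_upwards [hne x] with z hz
      exact k1 z hz y)
    refine ⟨m1, fun v => m2 v _ ((((angle_lim (a0 x) v.1).const_mul (r ^ 2)).add
      ((angle_lim (b0 x) v.2).const_mul (r ^ 2))).congr' ?_)⟩
    have h5 : Continuous fun t : ℝ => (A x, B x) + t • v := by fun_prop
    have h6 : Tendsto (fun t : ℝ => (A x, B x) + t • v) (𝓝 0) (𝓝 (A x, B x)) := by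
      simpa using h5.tendsto 0
    filter_upwards [nhdsWithin_le_nhds (h6.eventually (hne x))] with t ht
    rw [k3, k1 _ ht, add_div, mul_div_assoc, mul_div_assoc]
    rfl
  obtain ⟨l1, l2⟩ := lift_smooth (E := E) (K := ℝ × ℝ) (c := fun z => (‖z.1‖ ^ 2, ‖z.2‖ ^ 2))
    (Z := fun x => (A x, B x)) (by simp [hdim]) (fun x => (k6 x).1)
    ((contDiff_fst.norm_sq ℝ).prodMk (contDiff_snd.norm_sq ℝ)) (fun x v c1 c2 => by
      have c3 := (k6 x).2 v
      rw [c1, inner_zero_left] at c3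
      rw [(((hasFDerivAt_fst (p := (A x, B x))).norm_sq).prodMk
        ((hasFDerivAt_snd (p := (A x, B x))).norm_sq)).fderiv] at c2
      have c4 := fs_nonneg (A x) v.1
      have c5 := fs_nonneg (B x) v.2
      have c6 : 0 < r ^ 2 := by positivity
      refine Prod.ext (eq_zero_of_fs (a1 x) ?_ (by simpa using congrArg Prod.fst c2))
        (eq_zero_of_fs (b1 x) ?_ (by simpa using congrArg Prod.snd c2)) <;> nlinarith)
    ((cont_of_angle a1 hr ka).prodMk (cont_of_angle b1 hr kb)) k3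
    (fun x y => by simp only [a1, b1])
  have la : ContMDiff 𝓘(ℝ, E) 𝓘(ℝ, EuclideanSpace ℝ (Fin (2 + 1))) ∞ A :=
    contDiff_fst.contMDiff.comp l1
  have lb : ContMDiff 𝓘(ℝ, E) 𝓘(ℝ, EuclideanSpace ℝ (Fin (2 + 1))) ∞ B :=
    contDiff_snd.contMDiff.comp l1
  have ma : ∀ x, A x ∈ Metric.sphere (0 : EuclideanSpace ℝ (Fin (2 + 1))) 1 := fun x =>
    mem_sphere_zero_iff_norm.2 (a1 x)
  have mb : ∀ x, B x ∈ Metric.sphere (0 : EuclideanSpace ℝ (Fin (2 + 1))) 1 := fun x =>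
    mem_sphere_zero_iff_norm.2 (b1 x)
  have m2 : ∀ u : Sph 2 × Sph 2, A (P (u.1, u.2)) = u.1 ∧ B (P (u.1, u.2)) = u.2 := by
    intro u
    have h5 := hP (u.1, u.2) ⟨ne_zero_of_mem_unit_sphere u.1, ne_zero_of_mem_unit_sphere u.2⟩
    simpa only [norm_eq_of_mem_sphere, inv_one, one_smul] using h5
  refine ⟨⟨⟨fun x => (Set.codRestrict A _ ma x, Set.codRestrict B _ mb x),
    fun u => P (u.1, u.2), k3, fun u => Prod.ext (Subtype.ext (m2 u).1) (Subtype.ext (m2 u).2)⟩,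
    (la.codRestrict_sphere ma).prodMk (lb.codRestrict_sphere mb), fun u => ?_⟩, fun x => ?_⟩
  · refine ContMDiffAt.comp (g := P) u ?_
      (((contMDiff_coe_sphere.comp contMDiff_fst).prodMk_space
        (contMDiff_coe_sphere.comp contMDiff_snd)) u)
    have h5 := (k6 (P (u.1, u.2))).1
    rwa [(m2 u).1, (m2 u).2] at h5
  · refine polar_of (A := fun v => v) (fun _ _ => rfl) (fun v w => ?_) fun v => ?_
    · rw [pb_polar, pb_polar]
      ring
    · have d1 := (l1 x).mdifferentiableAt (by simp)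
      have d2 : mvfderiv 𝓘(ℝ, E) A x v = (mvfderiv 𝓘(ℝ, E) (fun x => (A x, B x)) x v).1 := by
        have d4 := mv_comp (f := fun x => (A x, B x)) (x := x) (hasFDerivAt_fst (𝕜 := ℝ)) d1 v
        exact d4
      have d3 : mvfderiv 𝓘(ℝ, E) B x v = (mvfderiv 𝓘(ℝ, E) (fun x => (A x, B x)) x v).2 := by
        have d4 := mv_comp (f := fun x => (A x, B x)) (x := x) (hasFDerivAt_snd (𝕜 := ℝ)) d1 v
        exact d4
      rw [← inner_tr (k3 x) _ v (l2 x v), (k6 x).2, ← d2, ← d3,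
        fs_unit ((la x).mdifferentiableAt (by simp)) a1,
        fs_unit ((lb x).mdifferentiableAt (by simp)) b1]
      rfl

end Vale.Agent.P211W
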